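import Mathlib

/-!
# P359: a sum dominated by a geometric series
-/

namespace P359.Tail8

open Finset

theorem geom_dom {K : Type*} [Field K] [LinearOrder K] [IsStrictOrderedRing K] (f : ℕ → K) {ρ : K}
    (h0 : 0 ≤ f 0) (hρ : 0 ≤ ρ) (hρ1 : ρ < 1) (h : ∀ t, f (t + 1) ≤ ρ * f t) (n : ℕ) :
    ∑ t ∈ range n, f t ≤ f 0 / (1 - ρ) := by
  have hb : ∀ t, f t ≤ f 0 * ρ ^ t := by
    intro t
    induction t with
    | zero => simp
    | succ t ih => calc f (t + 1) ≤ ρ * f t := h t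
        _ ≤ ρ * (f 0 * ρ ^ t) := by gcongr
        _ = _ := by ring
  refine (sum_le_sum fun t _ => hb t).trans ?_
  rw [← mul_sum, le_div_iff₀ (by linarith), mul_assoc, geom_sum_mul_neg]
  exact mul_le_of_le_one_right h0 (sub_le_self 1 (pow_nonneg hρ n))

end P359.Tail8
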