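import Vale.Agent.P359.Asm.Defs
import Vale.Agent.P359.Tail8.Geom

/-!
# P359: the infinite tail of the quartic weights
-/

noncomputable section

namespace P359.Asm

open Finset

theorem R3_abs_le (n k m l' : ℕ) :
    |R3 n (m + k) m l'| ≤ (4 : ℚ) ^ n / (4 ^ l' * (k.factorial : ℚ)) *
      (1 + (n : ℚ) / (8 * (k + 1))) ^ m := by
  rw [R3, abs_mul, abs_div, abs_pow, abs_neg, abs_one, one_pow, Nat.abs_cast]
  set z : ℚ := (n : ℚ) / (8 * (k + 1)) with hz
  have hsum : |∑ i ∈ range (n + 1),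
      if m ≤ m + k + i then
        (-1 : ℚ) ^ i * (m.choose i * n.descFactorial i * 4 ^ n : ℕ)
          / (8 ^ i * (m + k + i - m).factorial : ℕ)
      else 0| ≤ (4 : ℚ) ^ n / (k.factorial : ℚ) * (1 + z) ^ m := by
    refine (abs_sum_le_sum_abs _ _).trans ?_
    have hext : (1 + z) ^ m = ∑ i ∈ range (m + n + 1), z ^ i * (m.choose i : ℚ) := by
      rw [add_comm 1 z, add_pow]
      simp only [one_pow, mul_one]
      refine sum_subset (range_subset_range.2 (by omega)) fun i _ hi => ?_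
      rw [mem_range] at hi
      rw [Nat.choose_eq_zero_of_lt (by omega), Nat.cast_zero, mul_zero]
    rw [hext, mul_sum]
    refine le_trans (sum_le_sum fun i _ => ?_)
      (sum_le_sum_of_subset_of_nonneg (range_subset_range.2 (by omega))
        fun i _ _ => by positivity)
    rw [if_pos (by omega), abs_div, abs_mul, abs_pow, abs_neg, abs_one, one_pow, one_mul,
      Nat.abs_cast, Nat.abs_cast, show m + k + i - m = k + i by omega]
    have key : ((m.choose i * n.descFactorial i * 4 ^ n : ℕ) : ℚ) ≤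
        ((m.choose i * n ^ i * 4 ^ n : ℕ) : ℚ) :=
      Nat.cast_le.2 (by gcongr; exact Nat.descFactorial_le_pow n i)
    have hden : ((8 ^ i * (k.factorial * (k + 1) ^ i) : ℕ) : ℚ) ≤
        ((8 ^ i * (k + i).factorial : ℕ) : ℚ) :=
      Nat.cast_le.2 (Nat.mul_le_mul_left _ Nat.factorial_mul_pow_le_factorial)
    refine (div_le_div₀ (by positivity) key (by positivity) hden).trans (le_of_eq ?_)
    rw [hz, div_pow, mul_pow]
    push_cast
    field_simp
  calc _ ≤ 1 / ((4 ^ l' : ℕ) : ℚ) * ((4 : ℚ) ^ n / (k.factorial : ℚ) * (1 + z) ^ m) :=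
        mul_le_mul_of_nonneg_left hsum (by positivity)
    _ = _ := by push_cast; field_simp

theorem gauge2_nonneg' (L l : ℕ) : 0 ≤ gauge2 L l := by
  rw [gauge2]; positivity

/-- Gauge times weight of a channel. -/
def chanW (a l : ℕ) : ℝ := Real.sqrt ((gauge2 a l : ℝ) * (((a : ℝ) + 1) * ((l : ℝ) + 1)))

theorem chanW_succ (a l : ℕ) :
    chanW a (l + 1) = chanW a l * Real.sqrt (4 / 3 * ((l : ℝ) + 2)) := by
  rw [chanW, chanW, ← Real.sqrt_mul']
  · congr 1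
    rw [gauge2, gauge2, Nat.factorial_succ]
    push_cast
    rw [pow_succ, pow_succ]
    field_simp
    ring
  · positivity

/-- The bound at the first large weight `T0` of one pair of channels. -/
def tailC (T0 : ℕ) (q : ℕ → ℚ) (a n b m : ℕ) : ℚ :=
  (3 / 2 : ℚ) ^ ((a : ℤ) - n) * (4 : ℚ) ^ n /
    (4 ^ (T0 - b) * ((T0 - a - m).factorial : ℚ)) *
    (1 + (n : ℚ) / (8 * (((T0 - a - m : ℕ) : ℚ) + 1))) ^ m * (2 * (q a * q b))

/-- One square, at the first large weight. -/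
def Sq.tail0 (s : Sq) (T0 : ℕ) (q : ℕ → ℚ) : ℚ :=
  ∑ a ∈ s.Ls, ∑ b ∈ s.Ls, |s.r a * s.r b| * tailC T0 q a (s.n a) b (s.n b)

/-- The quartic hypothesis of `gap_of_data` from a finite check. -/
theorem htail_of_check (c : Data) (hlegal : ∀ s ∈ c.sqs, s.Legal) (Lmax Nmax : ℕ)
    (hbd : ∀ s ∈ c.sqs, ∀ a ∈ s.Ls, a ≤ Lmax ∧ s.n a ≤ Nmax)
    (hT : Lmax + Nmax ≤ c.TM + 1) (q : ℕ → ℚ)
    (hq : ∀ a ≤ Lmax, 0 ≤ q a ∧
      gauge2 a (c.TM + 1 - a) * (((a : ℚ) + 1) * (((c.TM + 1 - a : ℕ) : ℚ) + 1)) ≤ q a ^ 2)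
    (ρ e : ℚ) (hρ1 : ρ < 1)
    (hρ : ((c.TM + 2 - Lmax - Nmax + Nmax + 1 : ℕ) : ℚ) ≤
      3 * ((c.TM + 2 - Lmax - Nmax : ℕ) : ℚ) * ρ)
    (hcheck : (c.sqs.map fun s => s.tail0 (c.TM + 1) q).sum ≤ e * (1 - ρ)) :
    ∀ M, ∑ T ∈ Finset.Ioc c.TM M, c.tail T ≤ (e : ℝ) := by
  intro M
  set T0 := c.TM + 1 with hT0
  set K := c.TM + 2 - Lmax - Nmax with hK
  have hK1 : 1 ≤ K := by omega
  have hρR : ((K : ℝ) + Nmax + 1) ≤ 3 * (K : ℝ) * (ρ : ℝ) := by
    have := (Rat.cast_le (K := ℝ)).2 hρ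
    push_cast at this
    exact this
  have hρ0 : 0 ≤ (ρ : ℝ) := by
    by_contra h
    have : (0 : ℝ) < K := by exact_mod_cast hK1
    nlinarith [Nat.cast_nonneg (α := ℝ) Nmax]
  have hρ1' : (ρ : ℝ) < 1 := by exact_mod_cast hρ1
  have hρd : 0 < 1 - (ρ : ℝ) := by linarith
  -- one pair of channels
  set F : Sq → ℕ → ℕ → ℕ → ℝ := fun s a b T => if a ≤ T ∧ b ≤ T then
      ((|s.r a * s.r b * (3 / 2 : ℚ) ^ ((a : ℤ) - s.n a) *
          R3 (s.n a) (T - a) (s.n b) (T - b)| : ℚ) : ℝ) *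
        Real.sqrt (gauge2 a (T - a) * gauge2 b (T - b) : ℚ) *
        (2 * Real.sqrt (((a : ℝ) + 1) * ((T - a : ℕ) + 1) * ((b : ℝ) + 1) * ((T - b : ℕ) + 1)))
    else 0 with hF
  have hone : ∀ s ∈ c.sqs, ∀ a ∈ s.Ls, ∀ b ∈ s.Ls, ∀ J : ℕ,
      ∑ t ∈ range J, F s a b (T0 + t) ≤
        ((|s.r a * s.r b| * tailC T0 q a (s.n a) b (s.n b) : ℚ) : ℝ) / (1 - (ρ : ℝ)) := by
    intro s hs a ha b hb J
    obtain ⟨haL, hna⟩ := hbd s hs a ha
    obtain ⟨hbL, hnb⟩ := hbd s hs b hb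
    have hleg := (hlegal s hs).1 a ha b hb
    set n := s.n a with hn
    set m := s.n b with hm
    set k0 := T0 - a - m with hk0
    set w : ℝ := ((|s.r a * s.r b * (3 / 2 : ℚ) ^ ((a : ℤ) - n)| : ℚ) : ℝ) *
      (1 + (n : ℝ) / (8 * ((k0 : ℝ) + 1))) ^ m * 2 with hw
    have hw0 : 0 ≤ w := by
      rw [hw]
      have : (0 : ℝ) ≤ ((|s.r a * s.r b * (3 / 2 : ℚ) ^ ((a : ℤ) - n)| : ℚ) : ℝ) :=
        Rat.cast_nonneg.2 (abs_nonneg _)
      positivity
    set Φ : ℕ → ℝ := fun t => w * ((4 : ℝ) ^ n / ((4 : ℝ) ^ (T0 - b + t) * ((k0 + t).factorial : ℝ)))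
      * (chanW a (T0 - a + t) * chanW b (T0 - b + t)) with hΦ
    have hFΦ : ∀ t, F s a b (T0 + t) ≤ Φ t := by
      intro t
      rw [hF]
      simp only
      rw [if_pos ⟨by omega, by omega⟩, show T0 + t - a = T0 - a + t by omega,
        show T0 + t - b = T0 - b + t by omega, ← hn, ← hm]
      have hR : |R3 n (T0 - a + t) m (T0 - b + t)| ≤
          (4 : ℚ) ^ n / (4 ^ (T0 - b + t) * ((k0 + t).factorial : ℚ)) *
            (1 + (n : ℚ) / (8 * ((k0 : ℚ) + 1))) ^ m := by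
        rw [show T0 - a + t = m + (k0 + t) by omega]
        refine (R3_abs_le n (k0 + t) m _).trans ?_
        gcongr
        omega
      have hR' := (Rat.cast_le (K := ℝ)).2 hR
      push_cast at hR'
      have hsq : Real.sqrt ((gauge2 a (T0 - a + t) * gauge2 b (T0 - b + t) : ℚ) : ℝ) *
          (2 * Real.sqrt (((a : ℝ) + 1) * ((T0 - a + t : ℕ) + 1) * ((b : ℝ) + 1) *
            ((T0 - b + t : ℕ) + 1))) = 2 * (chanW a (T0 - a + t) * chanW b (T0 - b + t)) := by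
        have g1 : (0 : ℝ) ≤ gauge2 a (T0 - a + t) := Rat.cast_nonneg.2 (gauge2_nonneg' _ _)
        have g2 : (0 : ℝ) ≤ gauge2 b (T0 - b + t) := Rat.cast_nonneg.2 (gauge2_nonneg' _ _)
        rw [chanW, chanW, ← Real.sqrt_mul (by positivity), Rat.cast_mul, mul_left_comm,
          ← Real.sqrt_mul (by positivity)]
        congr 2
        ring
      rw [abs_mul, Rat.cast_mul, mul_assoc, hsq, hΦ, hw]
      simp only
      rw [Rat.cast_abs (R3 _ _ _ _)]
      have hc : 0 ≤ chanW a (T0 - a + t) * chanW b (T0 - b + t) :=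
        mul_nonneg (Real.sqrt_nonneg _) (Real.sqrt_nonneg _)
      have := mul_le_mul_of_nonneg_left hR'
        (Rat.cast_nonneg (K := ℝ).2 (abs_nonneg (s.r a * s.r b * (3 / 2 : ℚ) ^ ((a : ℤ) - n))))
      refine (mul_le_mul_of_nonneg_right this (by positivity)).trans (le_of_eq ?_)
      ring
    have hΦ0 : ∀ t, 0 ≤ Φ t := fun t => by
      rw [hΦ]
      exact mul_nonneg (mul_nonneg hw0 (by positivity)) (mul_nonneg (Real.sqrt_nonneg _) (Real.sqrt_nonneg _))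
    have hstep : ∀ t, Φ (t + 1) ≤ (ρ : ℝ) * Φ t := by
      intro t
      set k : ℝ := ((k0 + t : ℕ) : ℝ) + 1 with hk
      have hkpos : 0 < k := by positivity
      have hkK : (K : ℝ) ≤ k := by rw [hk]; exact_mod_cast (show K ≤ k0 + t + 1 by omega)
      have h1 : ((T0 - a + t : ℕ) : ℝ) + 2 ≤ k + Nmax + 1 := by
        rw [hk]; exact_mod_cast (show T0 - a + t + 2 ≤ k0 + t + 1 + Nmax + 1 by omega)
      have h2 : ((T0 - b + t : ℕ) : ℝ) + 2 ≤ k + Nmax + 1 := by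
        rw [hk]; exact_mod_cast (show T0 - b + t + 2 ≤ k0 + t + 1 + Nmax + 1 by omega)
      have hs2 : Real.sqrt (4 / 3 * (((T0 - a + t : ℕ) : ℝ) + 2)) *
          Real.sqrt (4 / 3 * (((T0 - b + t : ℕ) : ℝ) + 2)) ≤ 4 / 3 * (k + Nmax + 1) := by
        calc _ ≤ Real.sqrt (4 / 3 * (k + Nmax + 1)) * Real.sqrt (4 / 3 * (k + Nmax + 1)) := by gcongr
          _ = _ := Real.mul_self_sqrt (by positivity)
      have hr : 4 / 3 * (k + Nmax + 1) / (4 * k) ≤ (ρ : ℝ) := by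
        rw [div_le_iff₀ (by positivity)]
        have hK0 : (0 : ℝ) < K := by exact_mod_cast hK1
        have h3 : 1 ≤ 3 * (ρ : ℝ) := by nlinarith [Nat.cast_nonneg (α := ℝ) Nmax]
        nlinarith [mul_le_mul_of_nonneg_right hkK (sub_nonneg.2 h3)]
      have e : Φ (t + 1) = Φ t * ((Real.sqrt (4 / 3 * (((T0 - a + t : ℕ) : ℝ) + 2)) *
          Real.sqrt (4 / 3 * (((T0 - b + t : ℕ) : ℝ) + 2))) / (4 * k)) := by
        simp only [hΦ, ← add_assoc, chanW_succ, Nat.factorial_succ, pow_succ, hk]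
        push_cast
        field_simp
      rw [e, mul_comm (ρ : ℝ)]
      refine mul_le_mul_of_nonneg_left ?_ (hΦ0 t)
      exact (div_le_div_of_nonneg_right hs2 (by positivity)).trans hr
    have hzero : Φ 0 ≤ ((|s.r a * s.r b| * tailC T0 q a n b m : ℚ) : ℝ) := by
      have hqa : ∀ x ≤ Lmax, chanW x (T0 - x) ≤ (q x : ℝ) := by
        intro x hx
        rw [chanW, Real.sqrt_le_left (Rat.cast_nonneg.2 (hq x hx).1)]
        have := (Rat.cast_le (K := ℝ)).2 (hq x hx).2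
        push_cast at this
        exact this
      simp only [hΦ, add_zero, hw, tailC, ← hk0]
      rw [abs_mul, abs_of_pos (zpow_pos (by norm_num : (0 : ℚ) < 3 / 2) _)]
      push_cast
      have hp := mul_le_mul (hqa a haL) (hqa b hbL) (Real.sqrt_nonneg _)
        (Rat.cast_nonneg.2 (hq a haL).1)
      refine (mul_le_mul_of_nonneg_left hp (by positivity)).trans (le_of_eq ?_)
      ring
    calc ∑ t ∈ range J, F s a b (T0 + t) ≤ ∑ t ∈ range J, Φ t := sum_le_sum fun t _ => hFΦ t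
      _ ≤ Φ 0 / (1 - (ρ : ℝ)) := P359.Tail8.geom_dom Φ (hΦ0 0) hρ0 hρ1' hstep J
      _ ≤ _ := div_le_div_of_nonneg_right hzero hρd.le
  -- all squares
  have hsq : ∀ s ∈ c.sqs, ∀ J : ℕ, ∑ t ∈ range J, ∑ a ∈ s.Ls, ∑ b ∈ s.Ls, F s a b (T0 + t) ≤
      ((s.tail0 T0 q : ℚ) : ℝ) / (1 - (ρ : ℝ)) := by
    intro s hs J
    rw [Sq.tail0, Rat.cast_sum, sum_div, sum_comm]
    refine sum_le_sum fun a ha => ?_
    rw [Rat.cast_sum, sum_div, sum_comm]
    exact sum_le_sum fun b hb => hone s hs a ha b hb J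
  have hmain : ∀ l : List Sq, (∀ s ∈ l, s ∈ c.sqs) → ∀ J : ℕ,
      ∑ t ∈ range J, (l.map fun s => ∑ a ∈ s.Ls, ∑ b ∈ s.Ls, F s a b (T0 + t)).sum ≤
        (((l.map fun s => s.tail0 T0 q).sum : ℚ) : ℝ) / (1 - (ρ : ℝ)) := by
    intro l
    induction l with
    | nil => intro _ J; simp
    | cons s l ih =>
      intro h J
      simp only [List.map_cons, List.sum_cons, sum_add_distrib, Rat.cast_add, add_div]
      exact add_le_add (hsq s (h s List.mem_cons_self) J)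
        (ih (fun x hx => h x (List.mem_cons_of_mem _ hx)) J)
  have hI : Finset.Ioc c.TM M = Finset.Ico T0 (M + 1) := by
    ext; rw [mem_Ioc, mem_Ico]; omega
  rw [hI, sum_Ico_eq_sum_range]
  refine (hmain c.sqs (fun s hs => hs) (M + 1 - T0)).trans ?_
  rw [div_le_iff₀ hρd]
  have := (Rat.cast_le (K := ℝ)).2 hcheck
  rw [Rat.cast_mul, Rat.cast_sub, Rat.cast_one] at this
  exact this

end P359.Asm
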