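import Vale.Agent.P359.Tail8.Pair
import Vale.Agent.P359.Tail8.Quart
import Vale.Agent.P359.Cert8.Data

/-!
# P359: the two tails for the certificate
-/

namespace P359.Cert8

open P359.Asm

/-- Bounds for the square roots of gauge times weight at the weight 56. -/
def qs : List ℚ := [634098056280253395714722183569055699245956, 83988339309524683407876138736432103376641, 6872909328205928065659169607477139827634, 436870794914760574293399527639078500488, 23499907127073105185038074789094652814, 1118198316681266558163077274910807713, 48350384724342309714118450996657542, 1934402308131104316226697439412773, 72540086554916411858501153977980, 2574675629055740131830386345424, 87153182041371178036481864394, 2830852617351754069613902622, 88677568352220938981111831]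

theorem bounds_ok : ∀ s ∈ cert.sqs, ∀ a ∈ s.Ls, a ≤ 12 ∧ s.n a ≤ 16 := by decide +kernel

theorem qs_ok : ∀ a : ℕ, a < 13 → 0 ≤ qs.getD a 0 ∧
    gauge2 a (55 + 1 - a) * (((a : ℚ) + 1) * (((55 + 1 - a : ℕ) : ℚ) + 1)) ≤ qs.getD a 0 ^ 2 := by
  decide +kernel

theorem tail0_ok : (cert.sqs.map fun s => s.tail0 (55 + 1) (fun a => qs.getD a 0)).sum ≤
    (3 / 1000) * (1 - 46 / 87 : ℚ) := by decide +kernel

theorem legal_ok : ∀ s ∈ cert.sqs, (∀ L ∈ s.Ls, ∀ L' ∈ s.Ls, s.n L + L' = s.n L' + L) ∧
    (s.v = 0 ∨ ∀ L ∈ s.Ls, s.n L = L) := by decide +kernel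

theorem legal : ∀ s ∈ cert.sqs, s.Legal := fun s hs =>
  ⟨(legal_ok s hs).1, fun hv => (legal_ok s hs).2.resolve_left hv⟩

theorem pair0_ok : ∑ L ∈ (Finset.range (120 + 1)).filter (fun L => ¬ Bad L),
    ((L : ℚ) + 1) * (3 / 2) * max 0 (-cert.zq L) + 4 * pairTop cert (120 + 1) ≤ 7 / 1000 := by
  decide +kernel

theorem ys_nonneg : ∀ n, 0 ≤ cert.y n := by
  intro n
  rcases lt_or_ge n ys.length with h | h
  · exact (show ∀ m < ys.length, 0 ≤ ys.getD m 0 by decide +kernel) n h
  · show 0 ≤ ys.getD n 0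
    rw [List.getD_eq_default _ _ h]

/-- The pair hypothesis of `gap_of_data` for the certificate. -/
theorem hpair : ∀ M, ∑ L ∈ (Finset.range M).filter (fun L => ¬ Bad L),
    ((L : ℚ) + 1) * (3 / 2) * max 0 (-cert.zq L) ≤ 7 / 1000 :=
  hpair_of_check cert 120 _ ys_nonneg (by decide) (by decide)
    (fun s hs L hL => le_trans (bounds_ok s hs L hL).1 (by norm_num)) pair0_ok

/-- The quartic hypothesis of `gap_of_data` for the certificate. -/
theorem htail : ∀ M, ∑ T ∈ Finset.Ioc cert.TM M, cert.tail T ≤ ((3 / 1000 : ℚ) : ℝ) :=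
  htail_of_check cert legal 12 16 bounds_ok (by decide) (fun a => qs.getD a 0)
    (fun a ha => qs_ok a (Nat.lt_succ_of_le ha)) (46 / 87) _ (by norm_num)
    (by norm_num [cert]) tail0_ok

end P359.Cert8
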