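import Vale.Agent.P359.Asm.Defs
import Vale.Agent.P359.Tail8.Geom

/-!
# P359: the infinite tail of the pair channels
-/

namespace P359.Asm

open Finset

theorem F2q_abs_le (L n : ℕ) : |F2q L n| ≤ (3 * (L : ℚ) + n) ^ n / 2 ^ L := by
  rw [F2q, abs_mul, abs_div, abs_pow, abs_neg, abs_one, one_pow, Nat.abs_cast]
  have hsum : |∑ i ∈ range (n + 1),
      if n ≤ L + i then
        (-1 : ℚ) ^ i * (n.choose i : ℕ) * (3 ^ (n - i) * n.descFactorial i * L.factorial : ℕ)
          / ((L + i - n).factorial : ℕ)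
      else 0| ≤ (3 * (L : ℚ) + n) ^ n := by
    refine (abs_sum_le_sum_abs _ _).trans ?_
    rw [add_comm (3 * (L : ℚ)), add_pow]
    refine sum_le_sum fun i hi => ?_
    have hin : i ≤ n := Nat.le_of_lt_succ (mem_range.1 hi)
    split_ifs with h
    · rw [abs_div, abs_mul, abs_mul, abs_pow, abs_neg, abs_one, one_pow, one_mul, Nat.abs_cast,
        Nat.abs_cast, Nat.abs_cast, div_le_iff₀ (Nat.cast_pos.2 (Nat.factorial_pos _))]
      have e : L + i - n = L - (n - i) := by omega
      have hf := Nat.factorial_mul_descFactorial (show n - i ≤ L by omega)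
      rw [← e] at hf
      have key : 3 ^ (n - i) * n.descFactorial i * L.factorial ≤
          n ^ i * (3 * L) ^ (n - i) * (L + i - n).factorial := by
        rw [← hf, mul_pow]
        calc 3 ^ (n - i) * n.descFactorial i * ((L + i - n).factorial * L.descFactorial (n - i))
            ≤ 3 ^ (n - i) * n ^ i * ((L + i - n).factorial * L ^ (n - i)) := by
              gcongr
              · exact Nat.descFactorial_le_pow n i
              · exact Nat.descFactorial_le_pow L (n - i)
          _ = _ := by ring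
      have key' : ((3 ^ (n - i) * n.descFactorial i * L.factorial : ℕ) : ℚ) ≤
          ((n ^ i * (3 * L) ^ (n - i) * (L + i - n).factorial : ℕ) : ℚ) := Nat.cast_le.2 key
      calc (n.choose i : ℚ) * ((3 ^ (n - i) * n.descFactorial i * L.factorial : ℕ) : ℚ)
          ≤ (n.choose i : ℚ) * ((n ^ i * (3 * L) ^ (n - i) * (L + i - n).factorial : ℕ) : ℚ) :=
            mul_le_mul_of_nonneg_left key' (Nat.cast_nonneg _)
        _ = _ := by push_cast; ring
    · rw [abs_zero]; positivity
  have hden : (2 : ℚ) ^ L ≤ ((n.factorial * 2 ^ n * 2 ^ L : ℕ) : ℚ) := by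
    have : 1 * 2 ^ L ≤ n.factorial * 2 ^ n * 2 ^ L :=
      Nat.mul_le_mul_right _ (Nat.mul_pos (Nat.factorial_pos n) (Nat.two_pow_pos n))
    rw [one_mul] at this
    exact_mod_cast this
  calc _ ≤ 1 / (2 : ℚ) ^ L * (3 * (L : ℚ) + n) ^ n :=
        mul_le_mul (one_div_le_one_div_of_le (by positivity) hden) hsum (abs_nonneg _) (by positivity)
    _ = _ := by ring

/-- The bound for the channel `L` beyond all squares. -/
def pairTop (c : Data) (L : ℕ) : ℚ :=
  ((L : ℚ) + 1) * (3 / 2) * (2 + ∑ n ∈ range (c.N1 + 1), c.y n) *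
    ((4 * (L : ℚ)) ^ c.N1 / 2 ^ L)

/-- The pair hypothesis of `gap_of_data` from a finite check. -/
theorem hpair_of_check (c : Data) (LM : ℕ) (e1 : ℚ) (hy : ∀ n, 0 ≤ c.y n) (hN : 1 ≤ c.N1)
    (hLM : 3 * (c.N1 + 1) ≤ LM) (hLs : ∀ s ∈ c.sqs, ∀ L ∈ s.Ls, L ≤ LM)
    (hcheck : ∑ L ∈ (range (LM + 1)).filter (fun L => ¬ Bad L),
      ((L : ℚ) + 1) * (3 / 2) * max 0 (-c.zq L) + 4 * pairTop c (LM + 1) ≤ e1) :
    ∀ M, ∑ L ∈ (range M).filter (fun L => ¬ Bad L),
      ((L : ℚ) + 1) * (3 / 2) * max 0 (-c.zq L) ≤ e1 := by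
  intro M
  set Y := ∑ n ∈ range (c.N1 + 1), c.y n with hY
  have hY0 : 0 ≤ Y := sum_nonneg fun n _ => hy n
  set f : ℕ → ℚ := fun L => ((L : ℚ) + 1) * (3 / 2) * max 0 (-c.zq L) with hf
  have hf0 : ∀ L, 0 ≤ f L := fun L => mul_nonneg (by positivity) (le_max_left _ _)
  have hbig : ∀ t, f (LM + 1 + t) ≤ pairTop c (LM + 1 + t) := by
    intro t
    set L := LM + 1 + t with hL
    have hb : ∀ n, n ≤ c.N1 → |F2q L n| ≤ (4 * (L : ℚ)) ^ c.N1 / 2 ^ L := by
      intro n hn
      refine (F2q_abs_le L n).trans (div_le_div_of_nonneg_right ?_ (by positivity))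
      have h1 : (3 * (L : ℚ) + n) ≤ 4 * (L : ℚ) := by
        have : (n : ℚ) ≤ L := Nat.cast_le.2 (by omega)
        linarith
      have h2 : (1 : ℚ) ≤ 4 * (L : ℚ) := by
        have : (1 : ℚ) ≤ L := by exact_mod_cast (show 1 ≤ L by omega)
        linarith
      exact (pow_le_pow_left₀ (by positivity) h1 n).trans (pow_le_pow_right₀ h2 hn)
    have hs0 : (c.sqs.map fun s => if L ∈ s.Ls then
        s.r L ^ 2 * (((s.n L).factorial : ℚ) / (L.factorial : ℚ)) + 2 * s.v * s.r L
        else 0).sum = 0 := by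
      refine List.sum_eq_zero fun x hx => ?_
      obtain ⟨s, hs, rfl⟩ := List.mem_map.1 hx
      exact if_neg fun h => absurd (hLs s hs L h) (by omega)
    have hz : |c.zq L| ≤ (2 + Y) * ((4 * (L : ℚ)) ^ c.N1 / 2 ^ L) := by
      rw [Data.zq, hs0, sub_zero]
      refine (abs_add_le _ _).trans ?_
      rw [add_mul]
      refine add_le_add ?_ ?_
      · rw [abs_mul, abs_neg, abs_two]
        exact mul_le_mul_of_nonneg_left (hb 1 hN) (by norm_num)
      · refine (abs_sum_le_sum_abs _ _).trans ?_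
        rw [hY, sum_mul]
        refine sum_le_sum fun n hn => ?_
        rw [abs_mul, abs_of_nonneg (hy n)]
        exact mul_le_mul_of_nonneg_left (hb n (Nat.le_of_lt_succ (mem_range.1 hn))) (hy n)
    simp only [hf, pairTop, ← hY, mul_assoc]
    refine mul_le_mul_of_nonneg_left (mul_le_mul_of_nonneg_left ?_ (by norm_num)) (by positivity)
    exact max_le ((abs_nonneg _).trans hz) ((neg_le_abs _).trans hz)
  have hratio : ∀ t, pairTop c (LM + 1 + (t + 1)) ≤ 3 / 4 * pairTop c (LM + 1 + t) := by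
    intro t
    set L := LM + 1 + t with hL
    rw [← add_assoc, ← hL]
    simp only [pairTop, ← hY, Nat.cast_add, Nat.cast_one]
    set x : ℚ := (L : ℚ) with hx
    have hx1 : 1 ≤ x := by rw [hx]; exact_mod_cast (show 1 ≤ L by omega)
    have h3 : 3 * ((c.N1 : ℚ) + 1) ≤ x := by rw [hx]; exact_mod_cast (show 3 * (c.N1 + 1) ≤ L by omega)
    have hp : (x + 1) ^ (c.N1 + 1) * (2 / 3) ≤ x ^ (c.N1 + 1) := by
      have hx0 : 0 < x + 1 := by linarith
      have hinv : 1 / (x + 1) ≤ 1 := by rw [div_le_one hx0]; linarith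
      have hb := one_add_mul_le_pow (show -2 ≤ -(1 / (x + 1)) by linarith) (c.N1 + 1)
      have he : 1 + -(1 / (x + 1)) = x / (x + 1) := by field_simp; ring
      rw [he, div_pow, le_div_iff₀ (by positivity)] at hb
      refine le_trans ?_ hb
      rw [mul_comm]
      refine mul_le_mul_of_nonneg_right ?_ (by positivity)
      have : ((c.N1 : ℚ) + 1) / (x + 1) ≤ 1 / 3 := by rw [div_le_iff₀ hx0]; linarith
      push_cast
      rw [mul_neg, mul_one_div]
      linarith
    have hq : (x + 1 + 1) * x ≤ (x + 1) * (x + 1) := by nlinarith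
    have e : (x + 1 + 1) * (x + 1) ^ c.N1 ≤ 3 / 2 * ((x + 1) * x ^ c.N1) := by
      refine le_of_mul_le_mul_right ?_ (show (0 : ℚ) < x by linarith)
      calc (x + 1 + 1) * (x + 1) ^ c.N1 * x = ((x + 1 + 1) * x) * (x + 1) ^ c.N1 := by ring
        _ ≤ ((x + 1) * (x + 1)) * (x + 1) ^ c.N1 :=
            mul_le_mul_of_nonneg_right hq (by positivity)
        _ = (x + 1) * ((x + 1) ^ (c.N1 + 1) * (2 / 3)) * (3 / 2) := by ring
        _ ≤ (x + 1) * x ^ (c.N1 + 1) * (3 / 2) := by gcongr
        _ = _ := by ring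
    have := mul_le_mul_of_nonneg_left e
      (show 0 ≤ 3 / 2 * (2 + Y) * ((4 : ℚ) ^ c.N1 / (2 * 2 ^ L)) by positivity)
    rw [mul_pow, mul_pow, pow_succ]
    refine le_trans (le_of_eq ?_) (this.trans (le_of_eq ?_)) <;> ring
  have h00 : 0 ≤ pairTop c (LM + 1) := (hf0 _).trans (hbig 0)
  have htail : ∑ t ∈ range M, f (LM + 1 + t) ≤ 4 * pairTop c (LM + 1) := by
    refine (sum_le_sum fun t _ => hbig t).trans ?_
    have := P359.Tail8.geom_dom (fun t => pairTop c (LM + 1 + t)) (ρ := 3 / 4) (by simpa using h00)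
      (by norm_num) (by norm_num) hratio M
    simp only [add_zero] at this
    norm_num at this ⊢
    linarith
  calc ∑ L ∈ (range M).filter (fun L => ¬ Bad L), f L
      ≤ ∑ L ∈ (range (LM + 1 + M)).filter (fun L => ¬ Bad L), f L :=
        sum_le_sum_of_subset_of_nonneg (filter_subset_filter _ (range_subset_range.2 (by omega)))
          fun L _ _ => hf0 L
    _ ≤ ∑ L ∈ (range (LM + 1)).filter (fun L => ¬ Bad L), f L + 4 * pairTop c (LM + 1) := by
        rw [sum_filter, sum_filter, sum_range_add]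
        refine add_le_add le_rfl (le_trans (sum_le_sum fun t _ => ?_) htail)
        split_ifs
        · exact hf0 _
        · exact le_rfl
    _ ≤ e1 := hcheck

end P359.Asm
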